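import Mathlib
import Vale.Agent.P183.Cert.Part0
import Vale.Agent.P183.Cert.Part1
import Vale.Agent.P183.Cert.Part2
import Vale.Agent.P183.Cert.Part3
import Vale.Agent.P183.Cert.Part4
import Vale.Agent.P183.Cert.Part5
import Vale.Agent.P183.Cert.Part6
import Vale.Agent.P183.Cert.Part7
import Vale.Agent.P183.Cert.Part8
import Vale.Agent.P183.Cert.Part9
import Vale.Agent.P183.Cert.Part10
import Vale.Agent.P183.Cert.Part11

/-!
All pairs of the seven lattices are closed.
-/

namespace Vale.Agent.P183

theorem pairClosed_Lat (i j : Fin 7) : PairClosed (Lat i) (Lat j) := by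
  have h : ∀ i j : Fin 7, i ≤ j → PairClosed (Lat i) (Lat j) := by
    intro i j hij
    fin_cases i <;> fin_cases j <;> first
      | exact absurd hij (by decide)
      | skip
    · exact pairClosed0_0
    · exact pairClosed0_1
    · exact pairClosed0_2
    · exact pairClosed0_3
    · exact pairClosed0_4
    · exact pairClosed0_5
    · exact pairClosed0_6
    · exact pairClosed1_1
    · exact pairClosed1_2
    · exact pairClosed1_3
    · exact pairClosed1_4
    · exact pairClosed1_5
    · exact pairClosed1_6
    · exact pairClosed2_2
    · exact pairClosed2_3
    · exact pairClosed2_4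
    · exact pairClosed2_5
    · exact pairClosed2_6
    · exact pairClosed3_3
    · exact pairClosed3_4
    · exact pairClosed3_5
    · exact pairClosed3_6
    · exact pairClosed4_4
    · exact pairClosed4_5
    · exact pairClosed4_6
    · exact pairClosed5_5
    · exact pairClosed5_6
    · exact pairClosed6_6
  rcases le_total i j with hij | hij
  · exact h i j hij
  · exact (h j i hij).symm

end Vale.Agent.P183
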