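import Mathlib

/-!
Definitions used in the statement: representable lattices and seven lattices of equivalence
relations.
-/

namespace Vale.Agent.P183

/-- An operation of arity `k` is compatible with an equivalence relation. -/
def Compatible {X : Type} {k : ℕ} (f : (Fin k → X) → X) (θ : Setoid X) : Prop :=
  ∀ a b : Fin k → X, (∀ i, θ (a i) (b i)) → θ (f a) (f b)

/-- `L` is isomorphic to the congruence lattice of a finite algebra with a finite list of
operations. -/
def Representable (L : Type) [Lattice L] : Prop :=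
  ∃ (X : Type) (_ : Finite X) (_ : Nonempty X) (m : ℕ) (ar : Fin m → ℕ)
    (op : ∀ i, (Fin (ar i) → X) → X),
    Nonempty (L ≃o {θ : Setoid X // ∀ i, Compatible (op i) θ})

/-- Number of points carrying each of the seven lattices. -/
def size : Fin 7 → ℕ := ![3, 3, 4, 4, 6, 5, 4]

/-- The members of each of the seven lattices, as labellings of the points. -/
def parts : Fin 7 → List (List ℕ) :=
  ![[[0,0,0], [0,1,2]],
    [[0,0,0], [0,0,1], [0,1,0], [0,1,1], [0,1,2]],
    [[0,0,0,0], [0,0,1,1], [0,0,1,2], [0,1,0,1], [0,1,2,3]],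
    [[0,0,0,0], [0,0,1,1], [0,0,1,2], [0,1,0,1], [0,1,2,2], [0,1,2,3]],
    [[0,0,0,0,0,0], [0,0,0,1,1,1], [0,1,2,0,1,2], [0,1,2,0,1,3], [0,1,2,0,3,4],
      [0,1,2,3,1,4], [0,1,2,3,4,5]],
    [[0,0,0,0,0], [0,0,0,1,1], [0,0,1,0,1], [0,0,1,2,3], [0,1,0,2,2], [0,1,2,1,2],
      [0,1,2,3,4]],
    [[0,0,0,0], [0,0,0,1], [0,0,1,1], [0,0,1,2], [0,1,0,1], [0,1,0,2], [0,1,2,3]]]

/-- The equivalence relation of having equal labels. -/
def labelRel (n : ℕ) (l : List ℕ) : Setoid (Fin n) :=
  Setoid.ker fun i => l.getD i.val 0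

/-- The seven lattices: two-element, `M₃`, `N₅`, and four larger ones. -/
def Lat (t : Fin 7) : Set (Setoid (Fin (size t))) :=
  {θ | ∃ l ∈ parts t, θ = labelRel (size t) l}

end Vale.Agent.P183
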