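import Mathlib
import Vale.Agent.P183.Defs

/-!
Bounded sublattices of products of congruence lattices are congruence lattices, provided this
holds for all products of two factors.
-/

namespace Vale.Agent.P183

/-- A map of a product of two sets preserves a pair of equivalence relations. -/
def PresP {A B : Type} (F : A × B → A × B) (s : Setoid A × Setoid B) : Prop :=
  ∀ x y : A × B, s.1 x.1 y.1 → s.2 x.2 y.2 → s.1 (F x).1 (F y).1 ∧ s.2 (F x).2 (F y).2

/-- A self-map preserves an equivalence relation. -/
def PresU {A : Type} (f : A → A) (θ : Setoid A) : Prop := ∀ a b, θ a b → θ (f a) (f b)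

/-- Two lattices of equivalence relations are jointly closed. -/
def PairClosed {A B : Type} (LA : Set (Setoid A)) (LB : Set (Setoid B)) : Prop :=
  ∀ P : Set (Setoid A × Setoid B), (⊥ : Setoid A × Setoid B) ∈ P →
    (⊤ : Setoid A × Setoid B) ∈ P →
    (∀ s ∈ P, ∀ t ∈ P, s ⊓ t ∈ P) → (∀ s ∈ P, ∀ t ∈ P, s ⊔ t ∈ P) →
    (∀ s ∈ P, s.1 ∈ LA ∧ s.2 ∈ LB) →
    ∀ α ∈ LA, ∀ β ∈ LB, (∀ F, (∀ s ∈ P, PresP F s) → PresP F (α, β)) → (α, β) ∈ P

/-- A lattice of equivalence relations is closed. -/
def SingleClosed {A : Type} (LA : Set (Setoid A)) : Prop :=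
  ∀ α : Setoid A, (∀ f, (∀ θ ∈ LA, PresU f θ) → PresU f α) → α ∈ LA

theorem PairClosed.symm {A B : Type} {LA : Set (Setoid A)} {LB : Set (Setoid B)}
    (h : PairClosed LA LB) : PairClosed LB LA := by
  intro P h0 h1 hi hs hm α hα β hβ hF
  refine h {s | s.swap ∈ P} h0 h1 (fun s hs' t ht' => hi _ hs' _ ht')
    (fun s hs' t ht' => hs _ hs' _ ht') (fun s hs' => (hm _ hs').symm) β hβ α hα fun F hFP => ?_
  intro x y hx hy
  have key := hF (fun p => (F p.swap).swap) (fun s hs' => ?_) x.swap y.swap hy hx
  · simpa using key.symm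
  · intro u v hu hv
    have := hFP s.swap (by simpa using hs') u.swap v.swap hv hu
    exact this.symm

variable {L ι : Type} [Lattice L] [BoundedOrder L] [Fintype ι]
  {X : ι → Type} [∀ i, Finite (X i)] [∀ i, Nonempty (X i)]

theorem representable_of_pairClosed (Ls : ∀ i, Set (Setoid (X i)))
    (hpair : ∀ i j, PairClosed (Ls i) (Ls j)) (hone : ∀ i, SingleClosed (Ls i))
    (φ : L → ∀ i, Setoid (X i)) (hinj : Function.Injective φ)
    (hsup : ∀ x y, φ (x ⊔ y) = φ x ⊔ φ y) (hinf : ∀ x y, φ (x ⊓ y) = φ x ⊓ φ y)
    (hbot : φ ⊥ = ⊥) (htop : φ ⊤ = ⊤) (hmem : ∀ x i, φ x i ∈ Ls i) :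
    Representable L := by
  classical
  let E : L → Setoid (∀ i, X i) := fun x =>
    { r := fun u v => ∀ i, φ x i (u i) (v i)
      iseqv := ⟨fun u i => (φ x i).refl' _, fun h i => (φ x i).symm' (h i),
        fun h h' i => (φ x i).trans' (h i) (h' i)⟩ }
  have hle : ∀ x y, E x ≤ E y ↔ x ≤ y := by
    intro x y
    constructor
    · intro h
      rw [← sup_eq_right]
      apply hinj
      rw [hsup, sup_eq_right]
      intro i a b hab
      let c : ∀ k, X k := fun _ => Classical.arbitrary _
      have h1 : E x (Function.update c i a) (Function.update c i b) := by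
        intro k
        by_cases hk : k = i
        · subst hk; simpa using hab
        · simpa [hk] using (φ x k).refl' (c k)
      simpa using h h1 i
    · intro h u v huv i
      have : φ x ≤ φ y := by
        rw [← sup_eq_right, ← hsup, sup_eq_right.2 h]
      exact this i (huv i)
  let Ops : Set ((∀ i, X i) → ∀ i, X i) := {f | ∀ x, PresU f (E x)}
  have : Finite (∀ i, X i) := inferInstance
  have : Fintype Ops := Fintype.ofFinite _
  let en := Fintype.equivFin Ops
  refine ⟨∀ i, X i, inferInstance, inferInstance, Fintype.card Ops, fun _ => 1,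
    fun k a => (en.symm k).1 (a 0), ⟨?_⟩⟩
  have hc : ∀ x k, Compatible (fun a : Fin 1 → ∀ i, X i => (en.symm k).1 (a 0)) (E x) :=
    fun x k a b hab => (en.symm k).2 x _ _ (hab 0)
  refine RelIso.ofSurjective
    (OrderEmbedding.ofMapLEIff
      (fun x => (⟨E x, hc x⟩ : {θ : Setoid (∀ i, X i) //
        ∀ k, Compatible (fun a : Fin 1 → ∀ i, X i => (en.symm k).1 (a 0)) θ}))
      (fun x y => hle x y)) ?_
  rintro ⟨θ, hθ⟩
  have resp : ∀ f : (∀ i, X i) → ∀ i, X i, (∀ x, PresU f (E x)) → PresU f θ := by
    intro f hf u v huv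
    have := hθ (en ⟨f, hf⟩) (fun _ => u) (fun _ => v) (fun _ => huv)
    simpa using this
  let c : ∀ k, X k := fun _ => Classical.arbitrary _
  let θi : ∀ i, Setoid (X i) := fun i =>
    Setoid.comap (fun a => Function.update c i a) θ
  have θi_def : ∀ i a b, θi i a b ↔ θ (Function.update c i a) (Function.update c i b) :=
    fun i a b => Iff.rfl
  -- changing one coordinate does not depend on the base point
  have move : ∀ (d : ∀ k, X k) i a b, θi i a b →
      θ (Function.update d i a) (Function.update d i b) := by
    intro d i a b h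
    have := resp (fun u => Function.update d i (u i)) (fun x u v huv k => ?_) _ _
      ((θi_def i a b).1 h)
    · simpa using this
    · by_cases hk : k = i
      · subst hk; simpa using huv k
      · simpa [hk] using (φ x k).refl' (d k)
  have fwd : ∀ u v, θ u v → ∀ i, θi i (u i) (v i) := by
    intro u v huv i
    refine (θi_def i _ _).2 (resp (fun w => Function.update c i (w i)) (fun x p q hpq k => ?_) _ _ huv)
    by_cases hk : k = i
    · subst hk; simpa using hpq k
    · simpa [hk] using (φ x k).refl' (c k)
  have bwd : ∀ u v, (∀ i, θi i (u i) (v i)) → θ u v := by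
    intro u v h
    suffices ∀ s : Finset ι, θ u (fun k => if k ∈ s then v k else u k) by
      simpa using this Finset.univ
    intro s
    induction s using Finset.induction_on with
    | empty => simpa using θ.refl' u
    | insert i s hi ih =>
      refine θ.trans' ih ?_
      set w := fun k => if k ∈ s then v k else u k with hw
      have h1 := move w i (u i) (v i) (h i)
      have e1 : Function.update w i (u i) = w := by
        funext k
        by_cases hk : k = i
        · subst hk; simp [hw, hi]
        · simp [hk]
      have e2 : Function.update w i (v i) = fun k => if k ∈ insert i s then v k else u k := by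
        funext k
        by_cases hk : k = i
        · subst hk; simp
        · simp [hk, hw]
      rwa [e1, e2] at h1
  have hunary : ∀ i (g : X i → X i), (∀ x, PresU g (φ x i)) → PresU g (θi i) := by
    intro i g hg a b hab
    have := resp (fun u => Function.update c i (g (u i))) (fun x p q hpq k => ?_) _ _
      ((θi_def i a b).1 hab)
    · simpa [θi_def] using this
    · by_cases hk : k = i
      · subst hk; simpa using hg x _ _ (hpq k)
      · simpa [hk] using (φ x k).refl' (c k)
  have hin : ∀ i, θi i ∈ Ls i := fun i =>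
    hone i (θi i) fun g hg => hunary i g fun x => hg _ (hmem x i)
  have pairs : ∀ i j, ∃ x, φ x i = θi i ∧ φ x j = θi j := by
    intro i j
    let P : Set (Setoid (X i) × Setoid (X j)) := Set.range fun x => (φ x i, φ x j)
    suffices (θi i, θi j) ∈ P by
      obtain ⟨x, hx⟩ := this
      exact ⟨x, congrArg Prod.fst hx, congrArg Prod.snd hx⟩
    refine hpair i j P ⟨⊥, ?_⟩ ⟨⊤, ?_⟩ ?_ ?_ ?_ _ (hin i) _ (hin j) fun F hF => ?_
    · simp only [hbot]; rfl
    · simp only [htop]; rfl
    · rintro _ ⟨x, rfl⟩ _ ⟨y, rfl⟩
      exact ⟨x ⊓ y, by simp only [hinf]; rfl⟩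
    · rintro _ ⟨x, rfl⟩ _ ⟨y, rfl⟩
      exact ⟨x ⊔ y, by simp only [hsup]; rfl⟩
    · rintro _ ⟨x, rfl⟩
      exact ⟨hmem x i, hmem x j⟩
    intro p q hp hq
    by_cases hij : i = j
    · subst hij
      have hF' : ∀ x, PresP F (φ x i, φ x i) := fun x => hF _ ⟨x, rfl⟩
      constructor
      · refine (θi i).trans' (hunary i (fun a => (F (a, p.2)).1)
          (fun x a b hab => (hF' x (a, p.2) (b, p.2) hab ((φ x i).refl' _)).1) _ _ hp) ?_
        exact hunary i (fun b => (F (q.1, b)).1)
          (fun x a b hab => (hF' x (q.1, a) (q.1, b) ((φ x i).refl' _) hab).1) _ _ hq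
      · refine (θi i).trans' (hunary i (fun a => (F (a, p.2)).2)
          (fun x a b hab => (hF' x (a, p.2) (b, p.2) hab ((φ x i).refl' _)).2) _ _ hp) ?_
        exact hunary i (fun b => (F (q.1, b)).2)
          (fun x a b hab => (hF' x (q.1, a) (q.1, b) ((φ x i).refl' _) hab).2) _ _ hq
    · let G : (∀ k, X k) → ∀ k, X k := fun u =>
        Function.update (Function.update c i (F (u i, u j)).1) j (F (u i, u j)).2
      have hG : ∀ x, PresU G (E x) := by
        intro x u v huv k
        have := hF _ ⟨x, rfl⟩ (u i, u j) (v i, v j) (huv i) (huv j)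
        by_cases hkj : k = j
        · subst hkj; simpa [G] using this.2
        · by_cases hki : k = i
          · subst hki; simpa [G, hkj] using this.1
          · simpa [G, hkj, hki] using (φ x k).refl' (c k)
      let u := Function.update (Function.update c i p.1) j p.2
      let v := Function.update (Function.update c i q.1) j q.2
      have huv : θ u v := bwd u v fun k => by
        by_cases hkj : k = j
        · subst hkj; simpa [u, v] using hq
        · by_cases hki : k = i
          · subst hki; simpa [u, v, hkj] using hp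
          · simpa [u, v, hkj, hki] using (θi k).refl' (c k)
      have h2 := fwd _ _ (resp G hG u v huv)
      have hji : j ≠ i := fun e => hij e.symm
      exact ⟨by simpa [G, u, v, hij, hji] using h2 i, by simpa [G, u, v, hij, hji] using h2 j⟩
  -- the two-coordinate property gives membership
  choose s hs1 hs2 using pairs
  let z : L := Finset.univ.sup fun i => Finset.univ.inf fun j => s i j
  have hz : ∀ k, φ z k = θi k := by
    intro k
    have hsupF : ∀ (f : ι → L), φ (Finset.univ.sup f) = Finset.univ.sup fun i => φ (f i) := by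
      intro f
      exact Finset.apply_sup_eq_sup_comp φ hsup hbot
    have hinfF : ∀ (f : ι → L), φ (Finset.univ.inf f) = Finset.univ.inf fun i => φ (f i) := by
      intro f
      exact Finset.apply_inf_eq_inf_comp φ hinf htop
    apply le_antisymm
    · simp only [z, hsupF, Finset.sup_apply]
      refine Finset.sup_le fun i _ => ?_
      rw [hinfF, Finset.inf_apply]
      exact (Finset.inf_le (Finset.mem_univ k)).trans (hs2 i k).le
    · simp only [z, hsupF, Finset.sup_apply]
      refine le_trans ?_ (Finset.le_sup (Finset.mem_univ k))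
      rw [hinfF, Finset.inf_apply]
      exact Finset.le_inf fun j _ => (hs1 k j).ge
  refine ⟨z, Subtype.ext (Setoid.ext fun u v => ?_)⟩
  exact ⟨fun h => bwd u v fun k => hz k ▸ h k, fun h k => (hz k).symm ▸ fwd u v h k⟩

end Vale.Agent.P183
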