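import Mathlib

/-!
A certificate checker for the statement every sublattice of a finite product of two lattices of
equivalence relations is closed: a refutation tree in which every leaf is either a contradiction
or a map preserving all remaining candidates.
-/

namespace Vale.Agent.P183

/-- Tables of a finite lattice of labelled partitions of `N` points. -/
structure PD where
  T : ℕ
  N : ℕ
  mt : ℕ
  jn : ℕ
  lab : ℕ
  rep : ℕ

namespace PD

variable (d : PD)

def meet (p q : ℕ) : ℕ := Nat.land (Nat.shiftRight d.mt (Nat.mul 8 (Nat.add (Nat.mul d.T p) q))) 255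

def join (p q : ℕ) : ℕ := Nat.land (Nat.shiftRight d.jn (Nat.mul 8 (Nat.add (Nat.mul d.T p) q))) 255

def label (p i : ℕ) : ℕ := Nat.land (Nat.shiftRight d.lab (Nat.mul 8 (Nat.add (Nat.mul d.N p) i))) 255

def repr (p i : ℕ) : ℕ := Nat.land (Nat.shiftRight d.rep (Nat.mul 8 (Nat.add (Nat.mul d.N p) i))) 255

def app (f i : ℕ) : ℕ := Nat.land (Nat.shiftRight f (Nat.mul 8 i)) 255

def fullMask : ℕ := 2 ^ d.T - 1

/-- Points with equal labels get equal representatives, which stay below `N`. -/
def repOK : Bool :=
  (List.range d.T).all fun p => (List.range d.N).all fun i =>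
    decide (d.repr p i < d.N) && (d.label p (d.repr p i) == d.label p i) &&
      (List.range d.N).all fun j => !(d.label p i == d.label p j) || (d.repr p i == d.repr p j)

noncomputable def presRows (f p n : ℕ) : Bool :=
  Nat.rec true (fun i r => cond (Nat.beq (d.label p (app f i)) (d.label p (app f (d.repr p i)))) r
    false) n

noncomputable def presAll (f : ℕ) (gens : ℕ) (n : ℕ) : Bool :=
  Nat.rec true (fun p r => cond (Nat.beq (Nat.land (Nat.shiftRight gens p) 1) 1)
    (cond (d.presRows f p d.N) r false) r) n

noncomputable def appRows (f n : ℕ) : Bool :=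
  Nat.rec true (fun i r => cond (Nat.blt (app f i) d.N) r false) n

noncomputable def appOK (f : ℕ) : Bool := d.appRows f d.N

def movesT (f t u v : ℕ) : Bool :=
  decide (u < d.N) && decide (v < d.N) && (d.label t u == d.label t v) &&
    !(d.label t (app f u) == d.label t (app f v))

/-- One bit of a number, as a plain kernel-friendly function. -/
def bit (X p : ℕ) : Bool := Nat.beq (Nat.land (Nat.shiftRight X p) 1) 1

/-- Adds derived elements: each code is one step `kind + 2 * (p + 64 * q)`. -/
def derive : ℕ → List ℕ → Option ℕ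
  | X, [] => some X
  | X, c :: cs =>
    cond (bit X (Nat.land (Nat.shiftRight c 1) 63) && bit X (Nat.shiftRight c 7))
      (derive (Nat.lor X (Nat.shiftLeft 1 (cond (bit c 0)
        (d.join (Nat.land (Nat.shiftRight c 1) 63) (Nat.shiftRight c 7))
        (d.meet (Nat.land (Nat.shiftRight c 1) 63) (Nat.shiftRight c 7))))) cs)
      none

/-- One map: the packed map, a moved pair, generators and steps for the preserved set. -/
structure MapCert where
  f : ℕ
  u : ℕ
  v : ℕ
  gens : ℕ
  steps : List ℕ

noncomputable def mapMask (t : ℕ) (c : MapCert) : Option ℕ :=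
  if d.appOK c.f && d.movesT c.f t c.u c.v && d.presAll c.f c.gens d.T
      && ((c.gens &&& d.fullMask) == c.gens) then d.derive c.gens c.steps
  else none

noncomputable def mapMasks (t : ℕ) : List MapCert → Option (List ℕ)
  | [] => some []
  | c :: cs =>
    match d.mapMask t c, mapMasks t cs with
    | some P, some Ps => some (P :: Ps)
    | _, _ => none

/-- One reading step of the refutation tree, given the reader `ih` for the remaining fuel. -/
def stepRun (Ps : List ℕ) (dn : ℕ) (ih : ℕ → ℕ → ℕ → ℕ → Option ℕ)
    (X Z Y code : ℕ) : Option ℕ :=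
  let tok := Nat.land code 65535
  let rest := Nat.shiftRight code 16
  let p := Nat.land (Nat.shiftRight tok 3) 63
  let q := Nat.shiftRight tok 9
  match Nat.land tok 7 with
  | 0 =>
    cond (Nat.blt p d.T)
      ((ih (Nat.lor X (Nat.shiftLeft 1 p)) Z Y rest).bind fun rest' =>
        ih X Z (Nat.lor Y (Nat.shiftLeft 1 p)) rest')
      none
  | 1 => cond (bit X p && bit X q) (ih (Nat.lor X (Nat.shiftLeft 1 (d.meet p q))) Z Y rest) none
  | 2 => cond (bit X p && bit X q) (ih (Nat.lor X (Nat.shiftLeft 1 (d.join p q))) Z Y rest) none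
  | 3 =>
    cond (bit (Nat.lor X Z) p && bit (Nat.lor X Z) q)
      (ih X (Nat.lor Z (Nat.shiftLeft 1 (d.meet p q))) Y rest) none
  | 4 =>
    cond (bit (Nat.lor X Z) p && bit (Nat.lor X Z) q)
      (ih X (Nat.lor Z (Nat.shiftLeft 1 (d.join p q))) Y rest) none
  | 5 =>
    cond (Nat.beq (Nat.land X Y) 0 && Nat.beq (Nat.land (Nat.land Z Y) dn) 0) none (some rest)
  | _ =>
    match Ps[Nat.shiftRight tok 3]? with
    | some P => cond (Nat.beq (Nat.land (Nat.lor P Y) d.fullMask) d.fullMask) (some rest) none
    | none => none

/-- The refutation tree, read from 16-bit tokens. -/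
noncomputable def run (Ps : List ℕ) (dn fuel : ℕ) : ℕ → ℕ → ℕ → ℕ → Option ℕ :=
  Nat.rec (fun _ _ _ _ => none) (fun _ ih => d.stepRun Ps dn ih) fuel

/-- The certificate of one element `t`. -/
structure TCert where
  maps : List MapCert
  fuel : ℕ
  code : ℕ

noncomputable def checkT (base dn t : ℕ) (c : TCert) : Bool :=
  match d.mapMasks t c.maps with
  | some Ps => (d.run Ps dn c.fuel base (1 <<< t) (1 <<< t) c.code).isSome
  | none => false

noncomputable def checkAll (base : ℕ) : ℕ → List (ℕ × TCert) → Bool
  | dn, [] => (dn ||| base) &&& d.fullMask == d.fullMask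
  | dn, (t, c) :: cs =>
    decide (t < d.T) && d.checkT base dn t c && checkAll base (dn ||| (1 <<< t)) cs

end PD

end Vale.Agent.P183
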