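import Mathlib
import Vale.Agent.P183.Checker

/-!
Soundness of the certificate checker.
-/

namespace Vale.Agent.P183.PD

variable (d : PD)

/-- The map coded by `f` preserves element `p`. -/
def Pres (f p : ℕ) : Prop :=
  ∀ i < d.N, d.label p (app f i) = d.label p (app f (d.repr p i))

/-- All bits of `X` satisfy `P`. -/
def Sub (P : ℕ → Prop) (X : ℕ) : Prop := ∀ z, X.testBit z = true → P z

/-- A pair consisting of a sublattice `S` and the closed set `C` above it. -/
structure Ctx where
  S : ℕ → Prop
  C : ℕ → Prop
  S_lt : ∀ p, S p → p < d.T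
  S_le : ∀ p, S p → C p
  S_meet : ∀ p q, S p → S q → S (d.meet p q)
  S_join : ∀ p q, S p → S q → S (d.join p q)
  C_meet : ∀ p q, C p → C q → C (d.meet p q)
  C_join : ∀ p q, C p → C q → C (d.join p q)
  pres_meet : ∀ f p q, d.appOK f = true → p < d.T → q < d.T → d.Pres f p → d.Pres f q →
    d.meet p q < d.T ∧ d.Pres f (d.meet p q)
  pres_join : ∀ f p q, d.appOK f = true → p < d.T → q < d.T → d.Pres f p → d.Pres f q →
    d.join p q < d.T ∧ d.Pres f (d.join p q)
  resp : ∀ f, d.appOK f = true → (∀ p, S p → d.Pres f p) → ∀ p, C p → d.Pres f p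

variable {d}

theorem bit_eq (X p : ℕ) : bit X p = X.testBit p := by
  rw [bit, Nat.testBit_eq_decide_div_mod_eq, show Nat.land (Nat.shiftRight X p) 1 = X >>> p &&& 1
    from rfl, Nat.and_one_is_mod, Nat.shiftRight_eq_div_pow]
  by_cases h : X / 2 ^ p % 2 = 1
  · simp [h]
  · have h0 : X / 2 ^ p % 2 = 0 := by omega
    rw [h0]
    rfl

theorem Sub.add {P : ℕ → Prop} {X p : ℕ} (h : Sub P X) (hp : P p) :
    Sub P (Nat.lor X (Nat.shiftLeft 1 p)) := by
  intro z hz
  have hz' : (X ||| 1 <<< p).testBit z = true := hz
  rw [Nat.testBit_or, Nat.one_shiftLeft, Nat.testBit_two_pow] at hz'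
  simp only [Bool.or_eq_true, decide_eq_true_eq] at hz'
  rcases hz' with hz' | rfl
  · exact h z hz'
  · exact hp

theorem Sub.or {P : ℕ → Prop} {X Y z : ℕ} (h : Sub P X) (h' : Sub P Y)
    (hz : (Nat.lor X Y).testBit z = true) : P z := by
  have hz' : (X ||| Y).testBit z = true := hz
  rw [Nat.testBit_or, Bool.or_eq_true] at hz'
  rcases hz' with hz' | hz'
  · exact h z hz'
  · exact h' z hz'

theorem Pres.apply {f p u v : ℕ} (hr : d.repOK = true) (hp : p < d.T) (h : d.Pres f p)
    (hu : u < d.N) (hv : v < d.N) (e : d.label p u = d.label p v) :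
    d.label p (app f u) = d.label p (app f v) := by
  simp only [repOK, List.all_eq_true, List.mem_range, Bool.and_eq_true, decide_eq_true_eq,
    Bool.or_eq_true, beq_iff_eq, Bool.not_eq_true', beq_eq_false_iff_ne] at hr
  have := (hr p hp u hu).2 v hv
  rcases this with this | this
  · exact absurd e this
  · rw [h u hu, h v hv, this]

theorem presRows_sound {f p : ℕ} : ∀ {n : ℕ}, d.presRows f p n = true →
    ∀ i < n, d.label p (app f i) = d.label p (app f (d.repr p i))
  | 0, _, i, hi => absurd hi (Nat.not_lt_zero i)
  | n + 1, h, i, hi => by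
    have h' : cond (Nat.beq (d.label p (app f n)) (d.label p (app f (d.repr p n))))
        (d.presRows f p n) false = true := h
    cases hb : Nat.beq (d.label p (app f n)) (d.label p (app f (d.repr p n))) with
    | false => rw [hb] at h'; exact absurd h' (by simp)
    | true =>
      rw [hb, cond_true] at h'
      rcases Nat.lt_succ_iff_lt_or_eq.1 hi with hi | rfl
      · exact presRows_sound h' i hi
      · exact Nat.eq_of_beq_eq_true hb

theorem presAll_sound {f gens : ℕ} : ∀ {k : ℕ}, d.presAll f gens k = true →
    ∀ p < k, gens.testBit p = true → d.Pres f p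
  | 0, _, p, hp, _ => absurd hp (Nat.not_lt_zero p)
  | k + 1, h, p, hp, hb => by
    have h' : cond (bit gens k) (cond (d.presRows f k d.N) (d.presAll f gens k) false)
        (d.presAll f gens k) = true := h
    rw [bit_eq] at h'
    rcases Nat.lt_succ_iff_lt_or_eq.1 hp with hp | rfl
    · refine presAll_sound ?_ p hp hb
      cases hk : gens.testBit k <;> cases hr : d.presRows f k d.N <;> simp_all
    · rw [hb, cond_true] at h'
      cases hr : d.presRows f p d.N with
      | false => rw [hr] at h'; exact absurd h' (by simp)
      | true => exact fun i hi => presRows_sound hr i hi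

theorem appRows_sound {f : ℕ} : ∀ {n : ℕ}, d.appRows f n = true → ∀ i < n, app f i < d.N
  | 0, _, i, hi => absurd hi (Nat.not_lt_zero i)
  | n + 1, h, i, hi => by
    have h' : cond (Nat.blt (app f n) d.N) (d.appRows f n) false = true := h
    cases hb : Nat.blt (app f n) d.N with
    | false => rw [hb] at h'; exact absurd h' (by simp)
    | true =>
      rw [hb, cond_true] at h'
      rcases Nat.lt_succ_iff_lt_or_eq.1 hi with hi | rfl
      · exact appRows_sound h' i hi
      · exact Nat.blt_eq ▸ hb

theorem appOK_sound {f i : ℕ} (h : d.appOK f = true) (hi : i < d.N) : app f i < d.N :=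
  appRows_sound h i hi

theorem derive_sound (c : d.Ctx) {f : ℕ} (hf : d.appOK f = true) : ∀ (cs : List ℕ) {X R : ℕ},
    Sub (fun p => p < d.T ∧ d.Pres f p) X → d.derive X cs = some R →
      Sub (fun p => p < d.T ∧ d.Pres f p) R
  | [], X, R, hX, h => by
    simp only [derive, Option.some.injEq] at h
    exact h ▸ hX
  | a :: cs, X, R, hX, h => by
    simp only [derive] at h
    cases hb : (bit X (Nat.land (Nat.shiftRight a 1) 63) && bit X (Nat.shiftRight a 7)) with
    | false => rw [hb] at h; exact absurd h (by simp)
    | true =>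
      rw [hb, cond_true] at h
      rw [Bool.and_eq_true, bit_eq, bit_eq] at hb
      obtain ⟨h1, h1'⟩ := hX _ hb.1
      obtain ⟨h2, h2'⟩ := hX _ hb.2
      cases hk : bit a 0 with
      | false =>
        rw [hk, cond_false] at h
        exact derive_sound c hf cs (hX.add (c.pres_meet f _ _ hf h1 h2 h1' h2')) h
      | true =>
        rw [hk, cond_true] at h
        exact derive_sound c hf cs (hX.add (c.pres_join f _ _ hf h1 h2 h1' h2')) h

/-- A valid mask: a sublattice inside it cannot have `t` in its closure. -/
def Good (c : d.Ctx) (t P : ℕ) : Prop := (∀ p, c.S p → P.testBit p = true) → ¬ c.C t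

theorem mapMask_sound (c : d.Ctx) {t P : ℕ} (hr : d.repOK = true) (ht : t < d.T) {m : MapCert}
    (h : d.mapMask t m = some P) : Good c t P := by
  simp only [mapMask] at h
  split at h
  · rename_i hb
    simp only [Bool.and_eq_true, beq_iff_eq] at hb
    obtain ⟨⟨⟨hf, hmv⟩, hp⟩, hg⟩ := hb
    have hgens : Sub (fun p => p < d.T ∧ d.Pres m.f p) m.gens := by
      intro z hz
      have hzT : z < d.T := by
        rw [← hg, Nat.testBit_and, Bool.and_eq_true, fullMask, Nat.testBit_two_pow_sub_one,
          decide_eq_true_eq] at hz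
        exact hz.2
      exact ⟨hzT, presAll_sound hp z hzT hz⟩
    have hP := derive_sound c hf _ hgens h
    intro hS hC
    have hall := c.resp m.f hf (fun p hp' => (hP p (hS p hp')).2) t hC
    simp only [movesT, Bool.and_eq_true, decide_eq_true_eq, beq_iff_eq, Bool.not_eq_true',
      beq_eq_false_iff_ne] at hmv
    exact hmv.2 (Pres.apply hr ht hall hmv.1.1.1 hmv.1.1.2 hmv.1.2)
  · exact absurd h (by simp)

theorem mapMasks_sound (c : d.Ctx) {t : ℕ} (hr : d.repOK = true) (ht : t < d.T) :
    ∀ (ms : List MapCert) {Ps : List ℕ}, d.mapMasks t ms = some Ps → ∀ P ∈ Ps, Good c t P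
  | [], Ps, h, P, hP => by
    simp only [mapMasks, Option.some.injEq] at h
    rw [← h] at hP
    exact absurd hP (by simp)
  | m :: ms, Ps, h, P, hP => by
    simp only [mapMasks] at h
    split at h
    · rename_i P0 Ps0 h1 h2
      rw [Option.some.injEq] at h
      rw [← h, List.mem_cons] at hP
      rcases hP with rfl | hP
      · exact mapMask_sound c hr ht h1
      · exact mapMasks_sound c hr ht ms h2 P hP
    · exact absurd h (by simp)

theorem run_succ (Ps : List ℕ) (dn fuel X Z Y code : ℕ) :
    d.run Ps dn (fuel + 1) X Z Y code = d.stepRun Ps dn (d.run Ps dn fuel) X Z Y code := rfl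

theorem run_sound (c : d.Ctx) {t dn : ℕ} {Ps : List ℕ} (hPs : ∀ P ∈ Ps, Good c t P)
    (hdn : ∀ z, dn.testBit z = true → c.C z → c.S z) (hC : c.C t) :
    ∀ (fuel : ℕ) {X Z Y code : ℕ}, Sub c.S X → Sub c.C Z → Sub (fun p => ¬ c.S p) Y →
      d.run Ps dn fuel X Z Y code ≠ none → False := by
  intro fuel
  induction fuel with
  | zero => intro X Z Y code _ _ _ h; exact h rfl
  | succ fuel ih =>
    intro X Z Y code hX hZ hY h
    rw [run_succ] at h
    have hXZ : ∀ z, (Nat.lor X Z).testBit z = true → c.C z := fun z hz =>
      Sub.or (fun w hw => c.S_le w (hX w hw)) hZ hz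
    unfold stepRun at h
    simp only at h
    split at h
    · cases hb : Nat.blt (Nat.land (Nat.shiftRight (Nat.land code 65535) 3) 63) d.T
      · rw [hb] at h; exact h rfl
      rw [hb, cond_true] at h
      set p := Nat.land (Nat.shiftRight (Nat.land code 65535) 3) 63 with hp
      cases hs : d.run Ps dn fuel (Nat.lor X (Nat.shiftLeft 1 p)) Z Y (Nat.shiftRight code 16) with
      | none => rw [hs] at h; exact h rfl
      | some r =>
        rw [hs, Option.bind_some] at h
        refine ih hX hZ (hY.add fun hSp => ?_) h
        exact ih (hX.add hSp) hZ hY (by rw [hs]; simp)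
    all_goals first
      | (rename_i hk
         cases hb : (bit X (Nat.land (Nat.shiftRight (Nat.land code 65535) 3) 63) &&
             bit X (Nat.shiftRight (Nat.land code 65535) 9))
         · rw [hb] at h; exact h rfl
         rw [hb, cond_true] at h
         rw [Bool.and_eq_true, bit_eq, bit_eq] at hb
         first
         | exact ih (hX.add (c.S_meet _ _ (hX _ hb.1) (hX _ hb.2))) hZ hY h
         | exact ih (hX.add (c.S_join _ _ (hX _ hb.1) (hX _ hb.2))) hZ hY h)
      | (rename_i hk
         cases hb : (bit (Nat.lor X Z) (Nat.land (Nat.shiftRight (Nat.land code 65535) 3) 63) &&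
             bit (Nat.lor X Z) (Nat.shiftRight (Nat.land code 65535) 9))
         · rw [hb] at h; exact h rfl
         rw [hb, cond_true] at h
         rw [Bool.and_eq_true, bit_eq, bit_eq] at hb
         first
         | exact ih hX (hZ.add (c.C_meet _ _ (hXZ _ hb.1) (hXZ _ hb.2))) hY h
         | exact ih hX (hZ.add (c.C_join _ _ (hXZ _ hb.1) (hXZ _ hb.2))) hY h)
      | (cases hb : (Nat.beq (Nat.land X Y) 0 && Nat.beq (Nat.land (Nat.land Z Y) dn) 0)
         · rcases Bool.and_eq_false_iff.1 hb with h1 | h1
           · have h1' : X &&& Y ≠ 0 := fun e => by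
               have : Nat.beq (Nat.land X Y) 0 = true := by
                 rw [show Nat.land X Y = 0 from e]; rfl
               rw [this] at h1; simp at h1
             obtain ⟨z, hz⟩ := Nat.exists_testBit_of_ne_zero h1'
             rw [Nat.testBit_and, Bool.and_eq_true] at hz
             exact hY z hz.2 (hX z hz.1)
           · have h1' : Z &&& Y &&& dn ≠ 0 := fun e => by
               have : Nat.beq (Nat.land (Nat.land Z Y) dn) 0 = true := by
                 rw [show Nat.land (Nat.land Z Y) dn = 0 from e]; rfl
               rw [this] at h1; simp at h1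
             obtain ⟨z, hz⟩ := Nat.exists_testBit_of_ne_zero h1'
             rw [Nat.testBit_and, Nat.testBit_and, Bool.and_eq_true, Bool.and_eq_true] at hz
             exact hY z hz.1.2 (hdn z hz.2 (hZ z hz.1.1))
         · rw [hb] at h; exact h rfl)
      | (split at h
         · rename_i P hP
           cases hb : Nat.beq (Nat.land (Nat.lor P Y) d.fullMask) d.fullMask
           · rw [hb] at h; exact h rfl
           have hb' : (P ||| Y) &&& d.fullMask = d.fullMask := Nat.eq_of_beq_eq_true hb
           refine hPs P (List.mem_of_getElem? hP) (fun p hp => ?_) hC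
           have hpT := c.S_lt p hp
           have := congrArg (fun n => n.testBit p) hb'
           simp only [Nat.testBit_and, Nat.testBit_or, fullMask, Nat.testBit_two_pow_sub_one,
             decide_eq_true hpT, Bool.and_true, Bool.or_eq_true] at this
           rcases this with this | this
           · exact this
           · exact absurd hp (hY p this)
         · exact h rfl)

theorem checkT_sound (c : d.Ctx) {base dn t : ℕ} {tc : TCert} (hr : d.repOK = true)
    (ht : t < d.T) (hbase : Sub c.S base) (hdn : ∀ z, dn.testBit z = true → c.C z → c.S z)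
    (h : d.checkT base dn t tc = true) : c.C t → c.S t := by
  intro hC
  by_contra hS
  unfold checkT at h
  split at h
  · rename_i Ps hPs
    refine run_sound c (mapMasks_sound c hr ht tc.maps hPs) hdn hC tc.fuel hbase
      (fun z hz => ?_) (fun z hz => ?_) (Option.isSome_iff_ne_none.1 h)
    all_goals
      rw [Nat.one_shiftLeft, Nat.testBit_two_pow, decide_eq_true_eq] at hz
      subst hz
    · exact hC
    · exact hS
  · exact absurd h (by simp)

theorem checkAll_sound (c : d.Ctx) {base : ℕ} (hr : d.repOK = true) (hbase : Sub c.S base) :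
    ∀ (cs : List (ℕ × TCert)) (dn : ℕ), (∀ z, dn.testBit z = true → c.C z → c.S z) →
      d.checkAll base dn cs = true → ∀ z < d.T, c.C z → c.S z
  | [], dn, hdn, h, z, hz, hC => by
    simp only [checkAll, beq_iff_eq] at h
    have := congrArg (fun n => n.testBit z) h
    simp only [Nat.testBit_and, Nat.testBit_or, fullMask, Nat.testBit_two_pow_sub_one,
      decide_eq_true hz, Bool.and_true, Bool.or_eq_true] at this
    rcases this with this | this
    · exact hdn z this hC
    · exact hbase z this
  | (t, tc) :: cs, dn, hdn, h, z, hz, hC => by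
    simp only [checkAll, Bool.and_eq_true, decide_eq_true_eq] at h
    refine checkAll_sound c hr hbase cs _ (fun w hw => ?_) h.2 z hz hC
    rw [Nat.testBit_or, Nat.one_shiftLeft, Nat.testBit_two_pow, Bool.or_eq_true,
      decide_eq_true_eq] at hw
    rcases hw with hw | rfl
    · exact hdn w hw
    · exact checkT_sound c hr h.1.1 hbase hdn h.1.2

theorem checkAll_cons {base dn dn' t : ℕ} {tc : TCert} {cs : List (ℕ × TCert)}
    (ht : t < d.T) (e : dn ||| (1 <<< t) = dn') (h : d.checkT base dn t tc = true)
    (h' : d.checkAll base dn' cs = true) : d.checkAll base dn ((t, tc) :: cs) = true := by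
  simp only [checkAll, decide_eq_true ht, h, e, h', Bool.and_self]

end Vale.Agent.P183.PD
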