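import Mathlib
import Vale.Agent.P183.Defs

/-!
Operation tables and separating maps of the seven lattices, and the checks on them.
-/

namespace Vale.Agent.P183

/-- Meet tables, `a * k + a'`. -/
def mtab : Fin 7 → List ℕ :=
  ![[0,1,1,1],
    [0,1,2,3,4,1,1,4,4,4,2,4,2,4,4,3,4,4,3,4,4,4,4,4,4],
    [0,1,2,3,4,1,1,2,4,4,2,2,2,4,4,3,4,4,3,4,4,4,4,4,4],
    [0,1,2,3,4,5,1,1,2,5,4,5,2,2,2,5,5,5,3,5,5,3,5,5,4,4,5,5,4,5,5,5,5,5,5,5],
    [0,1,2,3,4,5,6,1,1,6,6,6,6,6,2,6,2,3,4,5,6,3,6,3,3,4,5,6,4,6,4,4,4,6,6,5,6,5,5,6,5,6,6,6,6,6,6,6,6],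
    [0,1,2,3,4,5,6,1,1,3,3,4,6,6,2,3,2,3,6,5,6,3,3,3,3,6,6,6,4,4,6,6,4,6,6,5,6,5,6,6,5,6,6,6,6,6,6,6,6],
    [0,1,2,3,4,5,6,1,1,3,3,5,5,6,2,3,2,3,6,6,6,3,3,3,3,6,6,6,4,5,6,6,4,5,6,5,5,6,6,5,5,6,6,6,6,6,6,6,6]]

/-- Join tables. -/
def jtab : Fin 7 → List ℕ :=
  ![[0,0,0,1],
    [0,0,0,0,0,0,1,0,0,1,0,0,2,0,2,0,0,0,3,3,0,1,2,3,4],
    [0,0,0,0,0,0,1,1,0,1,0,1,2,0,2,0,0,0,3,3,0,1,2,3,4],
    [0,0,0,0,0,0,0,1,1,0,1,1,0,1,2,0,1,2,0,0,0,3,0,3,0,1,1,0,4,4,0,1,2,3,4,5],
    [0,0,0,0,0,0,0,0,1,0,0,0,0,1,0,0,2,2,2,2,2,0,0,2,3,3,3,3,0,0,2,3,4,3,4,0,0,2,3,3,5,5,0,1,2,3,4,5,6],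
    [0,0,0,0,0,0,0,0,1,0,1,1,0,1,0,0,2,2,0,2,2,0,1,2,3,1,2,3,0,1,0,1,4,0,4,0,0,2,2,0,5,5,0,1,2,3,4,5,6],
    [0,0,0,0,0,0,0,0,1,0,1,0,1,1,0,0,2,2,0,0,2,0,1,2,3,0,1,3,0,0,0,0,4,4,4,0,1,0,1,4,5,5,0,1,2,3,4,5,6]]

/-- Maps separating all other equivalence relations. -/
def maps : Fin 7 → List (List ℕ) :=
  ![[[1,2,0]],
    [],
    [[1,0,3,2],[0,1,0,1]],
    [[1,0,3,2],[0,0,2,2]],
    [[1,2,0,1,2,0],[3,4,3,0,1,0],[3,3,5,3,3,5],[0,1,1,3,4,4]],
    [[0,0,2,0,2],[1,1,1,3,3],[2,2,2,4,4],[3,3,4,3,4]],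
    [[0,0,2,2],[0,1,0,1]]]


/-- Number of members. -/
def k (t : Fin 7) : ℕ := (parts t).length

/-- Label of point `i` in member `a`. -/
def lb (t : Fin 7) (a i : ℕ) : ℕ := ((parts t).getD a []).getD i 0

/-- Member `a` as an equivalence relation. -/
def el (t : Fin 7) (a : ℕ) : Setoid (Fin (size t)) := Setoid.ker fun i => lb t a i

def mOf (t : Fin 7) (a a' : ℕ) : ℕ := (mtab t).getD (k t * a + a') (k t)

def jOf (t : Fin 7) (a a' : ℕ) : ℕ := (jtab t).getD (k t * a + a') (k t)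

/-- Points reachable from `i` in `m` steps along members `a` and `a'`. -/
def reach (t : Fin 7) (a a' i : ℕ) : ℕ → List ℕ
  | 0 => [i]
  | m + 1 => (List.range (size t)).filter fun j =>
      (reach t a a' i m).any fun l => lb t a l == lb t a j || lb t a' l == lb t a' j

/-- All lists `c` of length `n` with `c i ≤ i`. -/
def cands : ℕ → List (List ℕ)
  | 0 => [[]]
  | n + 1 => (cands n).flatMap fun l => (List.range (n + 1)).map fun v => l ++ [v]

def meetOK (t : Fin 7) : Bool :=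
  (List.range (k t)).all fun a => (List.range (k t)).all fun a' =>
    decide (mOf t a a' < k t) &&
    (List.range (size t)).all fun i => (List.range (size t)).all fun j =>
      (lb t (mOf t a a') i == lb t (mOf t a a') j) ==
        (lb t a i == lb t a j && lb t a' i == lb t a' j)

def joinOK (t : Fin 7) : Bool :=
  (List.range (k t)).all fun a => (List.range (k t)).all fun a' =>
    decide (jOf t a a' < k t) &&
    (List.range (size t)).all fun i => (List.range (size t)).all fun j =>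
      (!(lb t a i == lb t a j || lb t a' i == lb t a' j) ||
        lb t (jOf t a a') i == lb t (jOf t a a') j) &&
      (!(lb t (jOf t a a') i == lb t (jOf t a a') j) ||
        (reach t a a' i (size t)).any fun l => l == j)

def endsOK (t : Fin 7) : Bool :=
  decide (0 < k t) && decide (0 < size t) &&
  ((List.range (k t)).all fun a => (List.range (size t)).all fun i => decide (lb t a i < 16)) &&
  (List.range (size t)).all fun i => (List.range (size t)).all fun j =>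
    lb t 0 i == lb t 0 j && (lb t (k t - 1) i == lb t (k t - 1) j) == (i == j)

def mapsOK (t : Fin 7) : Bool :=
  (maps t).all fun f =>
    ((List.range (size t)).all fun i => decide (f.getD i 0 < size t)) &&
    (List.range (k t)).all fun a => (List.range (size t)).all fun i =>
      (List.range (size t)).all fun j =>
        !(lb t a i == lb t a j) || lb t a (f.getD i 0) == lb t a (f.getD j 0)

def candsOK (t : Fin 7) : Bool :=
  (cands (size t)).all fun c =>
    ((List.range (k t)).any fun a =>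
      (List.range (size t)).all fun i => (List.range (size t)).all fun j =>
        (c.getD i 0 == c.getD j 0) == (lb t a i == lb t a j)) ||
    (maps t).any fun f =>
      (List.range (size t)).any fun i => (List.range (size t)).any fun j =>
        c.getD i 0 == c.getD j 0 && !(c.getD (f.getD i 0) 0 == c.getD (f.getD j 0) 0)

theorem meetOK_all : ∀ t, meetOK t = true := by decide +kernel

theorem joinOK_all : ∀ t, joinOK t = true := by decide +kernel

theorem endsOK_all : ∀ t, endsOK t = true := by decide +kernel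

theorem mapsOK_all : ∀ t, mapsOK t = true := by decide +kernel

theorem candsOK_all : ∀ t, candsOK t = true := by decide +kernel

end Vale.Agent.P183
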