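import Mathlib
import Vale.Agent.P183.Tables
import Vale.Agent.P183.Sound
import Vale.Agent.P183.Product

/-!
From the checked tables to the single and pairwise closedness of the seven lattices.
-/

namespace Vale.Agent.P183

theorem mem_Lat {t : Fin 7} {θ : Setoid (Fin (size t))} :
    θ ∈ Lat t ↔ ∃ a < k t, θ = el t a := by
  constructor
  · rintro ⟨l, hl, rfl⟩
    obtain ⟨a, ha, rfl⟩ := List.getElem_of_mem hl
    refine ⟨a, ha, ?_⟩
    unfold el lb labelRel
    simp only [List.getD_eq_getElem _ _ ha]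
  · rintro ⟨a, ha, rfl⟩
    refine ⟨(parts t)[a], List.getElem_mem ha, ?_⟩
    unfold el lb labelRel
    simp only [List.getD_eq_getElem _ _ (show a < (parts t).length from ha)]
    rfl

theorem el_rel {t : Fin 7} {a : ℕ} {i j : Fin (size t)} : el t a i j ↔ lb t a i = lb t a j :=
  Iff.rfl

theorem k_pos (t : Fin 7) : 0 < k t := by
  have h := endsOK_all t
  simp only [endsOK, Bool.and_eq_true, decide_eq_true_eq] at h
  exact h.1.1.1

theorem size_pos (t : Fin 7) : 0 < size t := by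
  have h := endsOK_all t
  simp only [endsOK, Bool.and_eq_true, decide_eq_true_eq] at h
  exact h.1.1.2

theorem lb_lt {t : Fin 7} {a : ℕ} (ha : a < k t) (i : Fin (size t)) : lb t a i < 16 := by
  have h := endsOK_all t
  simp only [endsOK, Bool.and_eq_true, decide_eq_true_eq, List.all_eq_true, List.mem_range] at h
  exact h.1.2 a ha i i.isLt

theorem el_zero (t : Fin 7) : el t 0 = ⊤ := by
  have h := endsOK_all t
  simp only [endsOK, Bool.and_eq_true, decide_eq_true_eq, List.all_eq_true, List.mem_range,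
    beq_iff_eq] at h
  exact eq_top_iff.2 fun i j _ => el_rel.2 (h.2 i i.isLt j j.isLt).1

theorem el_last (t : Fin 7) : el t (k t - 1) = ⊥ := by
  have h := endsOK_all t
  simp only [endsOK, Bool.and_eq_true, decide_eq_true_eq, List.all_eq_true, List.mem_range,
    beq_iff_eq] at h
  refine eq_bot_iff.2 fun i j hij => ?_
  have h' := (h.2 i i.isLt j j.isLt).2
  rw [beq_iff_eq.2 (el_rel.1 hij)] at h'
  exact Fin.ext (beq_iff_eq.1 h'.symm)

theorem el_meet {t : Fin 7} {a a' : ℕ} (ha : a < k t) (ha' : a' < k t) :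
    mOf t a a' < k t ∧ el t (mOf t a a') = el t a ⊓ el t a' := by
  have h := meetOK_all t
  simp only [meetOK, Bool.and_eq_true, decide_eq_true_eq, List.all_eq_true, List.mem_range] at h
  obtain ⟨h1, h2⟩ := h a ha a' ha'
  refine ⟨h1, Setoid.ext fun i j => ?_⟩
  have h3 := h2 i i.isLt j j.isLt
  rw [beq_iff_eq, Bool.eq_iff_iff, Bool.and_eq_true, beq_iff_eq, beq_iff_eq, beq_iff_eq] at h3
  exact h3

theorem reach_sub {t : Fin 7} {a a' : ℕ} (i : Fin (size t)) : ∀ (m l : ℕ) (hl : l < size t),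
    l ∈ reach t a a' i m → (el t a ⊔ el t a') i ⟨l, hl⟩
  | 0, l, hl, h => by
    simp only [reach, List.mem_singleton] at h
    subst h
    exact (el t a ⊔ el t a').refl' _
  | m + 1, l, hl, h => by
    simp only [reach, List.mem_filter, List.mem_range, List.any_eq_true, Bool.or_eq_true,
      beq_iff_eq] at h
    obtain ⟨-, l', hl', hs⟩ := h
    have hl'' : l' < size t := by
      cases m with
      | zero => simp only [reach, List.mem_singleton] at hl'; omega
      | succ m => simp only [reach, List.mem_filter, List.mem_range] at hl'; exact hl'.1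
    refine (el t a ⊔ el t a').trans' (reach_sub i m l' hl'' hl') ?_
    rcases hs with hs | hs
    · exact (le_sup_left : el t a ≤ el t a ⊔ el t a') hs
    · exact (le_sup_right : el t a' ≤ el t a ⊔ el t a') hs

theorem el_join {t : Fin 7} {a a' : ℕ} (ha : a < k t) (ha' : a' < k t) :
    jOf t a a' < k t ∧ el t (jOf t a a') = el t a ⊔ el t a' := by
  have h := joinOK_all t
  simp only [joinOK, Bool.and_eq_true, decide_eq_true_eq, List.all_eq_true, List.mem_range,
    Bool.or_eq_true, Bool.not_eq_true', Bool.or_eq_false_iff, beq_iff_eq, beq_eq_false_iff_ne,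
    List.any_eq_true] at h
  obtain ⟨h1, h2⟩ := h a ha a' ha'
  refine ⟨h1, le_antisymm (fun i j hij => ?_) (sup_le ?_ ?_)⟩
  · obtain ⟨l, hl, he⟩ := (h2 i i.isLt j j.isLt).2.resolve_left fun h => h (el_rel.1 hij)
    subst he
    exact reach_sub i _ _ j.isLt hl
  · intro i j hij
    exact el_rel.2 ((h2 i i.isLt j j.isLt).1.resolve_left fun h => h.1 (el_rel.1 hij))
  · intro i j hij
    exact el_rel.2 ((h2 i i.isLt j j.isLt).1.resolve_left fun h => h.2 (el_rel.1 hij))

theorem mem_cands (c : ℕ → ℕ) : ∀ n, (∀ i < n, c i ≤ i) → (List.range n).map c ∈ cands n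
  | 0, _ => by simp [cands]
  | n + 1, h => by
    simp only [cands, List.mem_flatMap, List.mem_map, List.mem_range]
    refine ⟨_, mem_cands c n fun i hi => h i (by omega), c n, by have := h n (by omega); omega, ?_⟩
    simp [List.range_succ]

/-- Each of the seven lattices is closed. -/
theorem singleClosed_Lat (t : Fin 7) : SingleClosed (Lat t) := by
  intro α hα
  classical
  let c : ℕ → ℕ := fun i => if h : i < size t then
      Nat.find (⟨i, h, α.refl' ⟨i, h⟩⟩ : ∃ j, ∃ hj : j < size t, α ⟨j, hj⟩ ⟨i, h⟩) else 0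
  have hc1 : ∀ (i : Fin (size t)), ∃ hj : c i < size t, α ⟨c i, hj⟩ i := by
    intro i
    simp only [c, dif_pos i.isLt]
    exact Nat.find_spec (p := fun j => ∃ hj : j < size t, α ⟨j, hj⟩ i) _
  have hc2 : ∀ i < size t, c i ≤ i := by
    intro i hi
    simp only [c, dif_pos hi]
    exact Nat.find_le ⟨hi, α.refl' _⟩
  have hc3 : ∀ i j : Fin (size t), α i j ↔ c i = c j := by
    intro i j
    obtain ⟨hi, hi'⟩ := hc1 i
    obtain ⟨hj, hj'⟩ := hc1 j
    constructor
    · intro h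
      apply le_antisymm
      · simp only [c, dif_pos i.isLt]
        exact Nat.find_le ⟨hj, α.trans' hj' (α.symm' h)⟩
      · conv_lhs => simp only [c, dif_pos j.isLt]
        exact Nat.find_le ⟨hi, α.trans' hi' h⟩
    · intro h
      have e : (⟨c i, hi⟩ : Fin (size t)) = ⟨c j, hj⟩ := Fin.ext h
      exact α.trans' (α.symm' hi') (e ▸ hj')
  have hget : ∀ i < size t, ((List.range (size t)).map c).getD i 0 = c i := by
    intro i hi
    rw [List.getD_eq_getElem _ _ (by simpa using hi)]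
    simp
  have h := candsOK_all t
  simp only [candsOK, List.all_eq_true, Bool.or_eq_true] at h
  rcases h _ (mem_cands c _ hc2) with h | h
  · simp only [List.any_eq_true, List.all_eq_true, List.mem_range, beq_iff_eq] at h
    obtain ⟨a, ha, h⟩ := h
    refine mem_Lat.2 ⟨a, ha, Setoid.ext fun i j => ?_⟩
    have h' := h i i.isLt j j.isLt
    rw [hget i i.isLt, hget j j.isLt, Bool.eq_iff_iff, beq_iff_eq, beq_iff_eq] at h'
    rw [hc3, el_rel, h']
  · simp only [List.any_eq_true, List.mem_range, Bool.and_eq_true, Bool.not_eq_true',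
      beq_iff_eq, beq_eq_false_iff_ne] at h
    obtain ⟨f, hf, i, hi, j, hj, he, hne⟩ := h
    have hm := mapsOK_all t
    simp only [mapsOK, List.all_eq_true, List.mem_range, Bool.and_eq_true, decide_eq_true_eq,
      Bool.or_eq_true, Bool.not_eq_true', beq_iff_eq, beq_eq_false_iff_ne] at hm
    obtain ⟨hf1, hf2⟩ := hm f hf
    exfalso
    have key : PresU (fun x : Fin (size t) => ⟨f.getD x 0, hf1 x x.isLt⟩) α := by
      refine hα _ fun θ hθ => ?_
      obtain ⟨a, ha, rfl⟩ := mem_Lat.1 hθ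
      intro x y hxy
      exact el_rel.2 ((hf2 a ha x x.isLt y y.isLt).resolve_left fun h => h (el_rel.1 hxy))
    rw [hget i hi, hget j hj] at he
    rw [hget _ (hf1 i hi), hget _ (hf1 j hj)] at hne
    exact hne ((hc3 ⟨_, hf1 i hi⟩ ⟨_, hf1 j hj⟩).1 (key ⟨i, hi⟩ ⟨j, hj⟩ ((hc3 _ _).2 he)))

/-- The tables of a pair describe the product of two of the lattices. -/
def pairOK (t t' : Fin 7) (d : PD) (base : ℕ) : Bool :=
  d.T == k t * k t' && d.N == size t * size t' &&
  base == (1 ||| 1 <<< (d.T - 1)) &&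
  (d.T - 1) / k t' == k t - 1 && (d.T - 1) % k t' == k t' - 1 &&
  ((List.range d.T).all fun p => (List.range d.N).all fun i =>
    d.label p i == lb t (p / k t') (i / size t') * 16 + lb t' (p % k t') (i % size t')) &&
  (List.range d.T).all fun p => (List.range d.T).all fun q =>
    d.meet p q == mOf t (p / k t') (q / k t') * k t' + mOf t' (p % k t') (q % k t') &&
    d.join p q == jOf t (p / k t') (q / k t') * k t' + jOf t' (p % k t') (q % k t')

section Pair

variable {t t' : Fin 7} {d : PD} {base : ℕ}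

/-- Element `p` of a product. -/
def pairEl (t t' : Fin 7) (p : ℕ) : Setoid (Fin (size t)) × Setoid (Fin (size t')) :=
  (el t (p / k t'), el t' (p % k t'))

/-- The index of a point of the product. -/
def idx (x : Fin (size t) × Fin (size t')) : ℕ := x.1 * size t' + x.2

theorem idx_lt (x : Fin (size t) × Fin (size t')) : idx x < size t * size t' :=
  calc idx x < (x.1 + 1) * size t' := by unfold idx; rw [Nat.succ_mul]; omega
    _ ≤ size t * size t' := Nat.mul_le_mul_right _ x.1.isLt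

theorem idx_div (x : Fin (size t) × Fin (size t')) : idx x / size t' = x.1 := by
  unfold idx
  rw [Nat.add_comm, Nat.add_mul_div_right _ _ (size_pos t'), Nat.div_eq_of_lt x.2.isLt,
    Nat.zero_add]

theorem idx_mod (x : Fin (size t) × Fin (size t')) : idx x % size t' = x.2 := by
  unfold idx
  rw [Nat.add_comm, Nat.add_mul_mod_self_right, Nat.mod_eq_of_lt x.2.isLt]

theorem presP_inf {A B : Type} {F : A × B → A × B} {s u : Setoid A × Setoid B}
    (hs : PresP F s) (hu : PresP F u) : PresP F (s ⊓ u) := fun x y h1 h2 =>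
  ⟨⟨(hs x y h1.1 h2.1).1, (hu x y h1.2 h2.2).1⟩, ⟨(hs x y h1.1 h2.1).2, (hu x y h1.2 h2.2).2⟩⟩

theorem presP_sup {A B : Type} {F : A × B → A × B} {s u : Setoid A × Setoid B}
    (hs : PresP F s) (hu : PresP F u) : PresP F (s ⊔ u) := by
  intro x y h1 h2
  have a1 : ∀ b, s.1 ⊔ u.1 ≤ Setoid.comap (fun a => (F (a, b)).1) (s.1 ⊔ u.1) := fun b =>
    sup_le
      (fun a a' h => (le_sup_left : s.1 ≤ s.1 ⊔ u.1) (hs (a, b) (a', b) h (s.2.refl' b)).1)
      (fun a a' h => (le_sup_right : u.1 ≤ s.1 ⊔ u.1) (hu (a, b) (a', b) h (u.2.refl' b)).1)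
  have a2 : ∀ b, s.1 ⊔ u.1 ≤ Setoid.comap (fun a => (F (a, b)).2) (s.2 ⊔ u.2) := fun b =>
    sup_le
      (fun a a' h => (le_sup_left : s.2 ≤ s.2 ⊔ u.2) (hs (a, b) (a', b) h (s.2.refl' b)).2)
      (fun a a' h => (le_sup_right : u.2 ≤ s.2 ⊔ u.2) (hu (a, b) (a', b) h (u.2.refl' b)).2)
  have b1 : ∀ a, s.2 ⊔ u.2 ≤ Setoid.comap (fun b => (F (a, b)).1) (s.1 ⊔ u.1) := fun a =>
    sup_le
      (fun b b' h => (le_sup_left : s.1 ≤ s.1 ⊔ u.1) (hs (a, b) (a, b') (s.1.refl' a) h).1)
      (fun b b' h => (le_sup_right : u.1 ≤ s.1 ⊔ u.1) (hu (a, b) (a, b') (u.1.refl' a) h).1)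
  have b2 : ∀ a, s.2 ⊔ u.2 ≤ Setoid.comap (fun b => (F (a, b)).2) (s.2 ⊔ u.2) := fun a =>
    sup_le
      (fun b b' h => (le_sup_left : s.2 ≤ s.2 ⊔ u.2) (hs (a, b) (a, b') (s.1.refl' a) h).2)
      (fun b b' h => (le_sup_right : u.2 ≤ s.2 ⊔ u.2) (hu (a, b) (a, b') (u.1.refl' a) h).2)
  exact ⟨(s.1 ⊔ u.1).trans' (a1 x.2 h1) (b1 y.1 h2), (s.2 ⊔ u.2).trans' (a2 x.2 h1) (b2 y.1 h2)⟩

theorem pairClosed_of_check (hd : pairOK t t' d base = true) (hr : d.repOK = true)
    {cs : List (ℕ × PD.TCert)} (hc : d.checkAll base 0 cs = true) :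
    PairClosed (Lat t) (Lat t') := by
  simp only [pairOK, Bool.and_eq_true, beq_iff_eq, List.all_eq_true, List.mem_range] at hd
  obtain ⟨⟨⟨⟨⟨⟨hT, hN⟩, hbase⟩, hlast⟩, hlast'⟩, hlab⟩, htab⟩ := hd
  intro P h0 h1 hinf hsup hmem α hα β hβ hαβ
  have hk := k_pos t'
  have dlt : ∀ {p}, p < d.T → p / k t' < k t ∧ p % k t' < k t' := fun hp =>
    ⟨(Nat.div_lt_iff_lt_mul hk).2 (hT ▸ hp), Nat.mod_lt _ hk⟩
  have mk : ∀ {a b}, a < k t → b < k t' →
      a * k t' + b < d.T ∧ pairEl t t' (a * k t' + b) = (el t a, el t' b) := by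
    intro a b ha hb
    refine ⟨?_, ?_⟩
    · rw [hT]
      calc a * k t' + b < (a + 1) * k t' := by rw [Nat.succ_mul]; omega
        _ ≤ k t * k t' := Nat.mul_le_mul_right _ ha
    · unfold pairEl
      rw [Nat.add_comm, Nat.add_mul_div_right _ _ hk, Nat.div_eq_of_lt hb, Nat.zero_add,
        Nat.add_mul_mod_self_right, Nat.mod_eq_of_lt hb]
  have hmeet : ∀ {p q}, p < d.T → q < d.T →
      d.meet p q < d.T ∧ pairEl t t' (d.meet p q) = pairEl t t' p ⊓ pairEl t t' q := by
    intro p q hp hq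
    obtain ⟨e1, e2⟩ := el_meet (dlt hp).1 (dlt hq).1
    obtain ⟨f1, f2⟩ := el_meet (dlt hp).2 (dlt hq).2
    obtain ⟨g1, g2⟩ := mk e1 f1
    rw [(htab p hp q hq).1]
    exact ⟨g1, by rw [g2, e2, f2]; rfl⟩
  have hjoin : ∀ {p q}, p < d.T → q < d.T →
      d.join p q < d.T ∧ pairEl t t' (d.join p q) = pairEl t t' p ⊔ pairEl t t' q := by
    intro p q hp hq
    obtain ⟨e1, e2⟩ := el_join (dlt hp).1 (dlt hq).1
    obtain ⟨f1, f2⟩ := el_join (dlt hp).2 (dlt hq).2
    obtain ⟨g1, g2⟩ := mk e1 f1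
    rw [(htab p hp q hq).2]
    exact ⟨g1, by rw [g2, e2, f2]; rfl⟩
  have hlab' : ∀ {p}, p < d.T → ∀ x y : Fin (size t) × Fin (size t'),
      d.label p (idx x) = d.label p (idx y) ↔
        ((pairEl t t' p).1 x.1 y.1 ∧ (pairEl t t' p).2 x.2 y.2) := by
    intro p hp x y
    rw [hlab p hp _ (hN ▸ idx_lt x), hlab p hp _ (hN ▸ idx_lt y), idx_div, idx_div, idx_mod,
      idx_mod]
    have := lb_lt (dlt hp).2 x.2
    have := lb_lt (dlt hp).2 y.2
    change _ ↔ lb t _ x.1 = lb t _ y.1 ∧ lb t' _ x.2 = lb t' _ y.2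
    omega
  let dec : ∀ i, i < d.N → Fin (size t) × Fin (size t') := fun i hi =>
    (⟨i / size t', (Nat.div_lt_iff_lt_mul (size_pos t')).2 (hN ▸ hi)⟩,
      ⟨i % size t', Nat.mod_lt _ (size_pos t')⟩)
  have dec_idx : ∀ i hi, idx (dec i hi) = i := fun i hi => Nat.div_add_mod' i (size t')
  have happ : ∀ {f}, d.appOK f = true → ∀ x : Fin (size t) × Fin (size t'),
      PD.app f (idx x) < d.N := by
    intro f hf x
    exact PD.appOK_sound hf (hN ▸ idx_lt x)
  have pres_iff : ∀ {f} (hf : d.appOK f = true) {p}, p < d.T →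
      (d.Pres f p ↔ PresP (fun x => dec _ (happ hf x)) (pairEl t t' p)) := by
    intro f hf p hp
    constructor
    · intro h x y hx hy
      have := PD.Pres.apply hr hp h (hN ▸ idx_lt x) (hN ▸ idx_lt y) ((hlab' hp x y).2 ⟨hx, hy⟩)
      refine (hlab' hp _ _).1 ?_
      simpa only [dec_idx] using this
    · intro h i hi
      have hr' := hr
      simp only [PD.repOK, List.all_eq_true, List.mem_range, Bool.and_eq_true, decide_eq_true_eq,
        beq_iff_eq] at hr'
      obtain ⟨⟨hri, hre⟩, -⟩ := hr' p hp i hi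
      have hx := (hlab' hp (dec _ hri) (dec _ hi)).1 (by simp only [dec_idx]; exact hre)
      have := (hlab' hp _ _).2 (h _ _ hx.1 hx.2)
      simp only [dec_idx] at this
      exact this.symm
  let C : d.Ctx :=
    { S := fun p => p < d.T ∧ pairEl t t' p ∈ P
      C := fun p => p < d.T ∧ ∀ F, (∀ s ∈ P, PresP F s) → PresP F (pairEl t t' p)
      S_lt := fun p h => h.1
      S_le := fun p h => ⟨h.1, fun F hF => hF _ h.2⟩
      S_meet := fun p q hp hq =>
        ⟨(hmeet hp.1 hq.1).1, (hmeet hp.1 hq.1).2 ▸ hinf _ hp.2 _ hq.2⟩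
      S_join := fun p q hp hq =>
        ⟨(hjoin hp.1 hq.1).1, (hjoin hp.1 hq.1).2 ▸ hsup _ hp.2 _ hq.2⟩
      C_meet := fun p q hp hq => ⟨(hmeet hp.1 hq.1).1, fun F hF =>
        (hmeet hp.1 hq.1).2 ▸ presP_inf (hp.2 F hF) (hq.2 F hF)⟩
      C_join := fun p q hp hq => ⟨(hjoin hp.1 hq.1).1, fun F hF =>
        (hjoin hp.1 hq.1).2 ▸ presP_sup (hp.2 F hF) (hq.2 F hF)⟩
      pres_meet := fun f p q hf hp hq h h' => ⟨(hmeet hp hq).1, (pres_iff hf (hmeet hp hq).1).2
        ((hmeet hp hq).2 ▸ presP_inf ((pres_iff hf hp).1 h) ((pres_iff hf hq).1 h'))⟩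
      pres_join := fun f p q hf hp hq h h' => ⟨(hjoin hp hq).1, (pres_iff hf (hjoin hp hq).1).2
        ((hjoin hp hq).2 ▸ presP_sup ((pres_iff hf hp).1 h) ((pres_iff hf hq).1 h'))⟩
      resp := fun f hf h p hp => (pres_iff hf hp.1).2 (hp.2 _ fun s hs => by
        obtain ⟨a, ha, ea⟩ := mem_Lat.1 (hmem s hs).1
        obtain ⟨b, hb, eb⟩ := mem_Lat.1 (hmem s hs).2
        obtain ⟨g1, g2⟩ := mk ha hb
        have e : pairEl t t' (a * k t' + b) = s := by rw [g2, ← ea, ← eb]
        exact e ▸ (pres_iff hf g1).1 (h _ ⟨g1, e.symm ▸ hs⟩)) }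
  have hTpos : 0 < d.T := hT ▸ Nat.mul_pos (k_pos t) hk
  have hb : PD.Sub C.S base := by
    intro z hz
    rw [hbase, Nat.testBit_or, Bool.or_eq_true, Nat.one_shiftLeft, Nat.testBit_two_pow,
      decide_eq_true_eq, ← pow_zero 2, Nat.testBit_two_pow, decide_eq_true_eq] at hz
    rcases hz with rfl | rfl
    · refine ⟨hTpos, ?_⟩
      have e : pairEl t t' 0 = ⊤ := by
        unfold pairEl
        rw [Nat.zero_div, Nat.zero_mod, el_zero, el_zero]
        rfl
      exact e ▸ h1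
    · refine ⟨Nat.sub_lt hTpos Nat.one_pos, ?_⟩
      have e : pairEl t t' (d.T - 1) = ⊥ := by
        unfold pairEl
        rw [hlast, hlast', el_last, el_last]
        rfl
      exact e ▸ h0
  obtain ⟨a, ha, rfl⟩ := mem_Lat.1 hα
  obtain ⟨b, hb', rfl⟩ := mem_Lat.1 hβ
  obtain ⟨g1, g2⟩ := mk ha hb'
  have := PD.checkAll_sound C hr hb cs 0 (fun z hz => by simp at hz) hc _ g1
    ⟨g1, fun F hF => g2.symm ▸ hαβ F hF⟩
  exact g2 ▸ this.2

end Pair

end Vale.Agent.P183
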